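import Vale.Agent.P062.Top
import Vale.Agent.P062.Cert.R0
import Vale.Agent.P062.Cert.R1
import Vale.Agent.P062.Cert.R2
import Vale.Agent.P062.Cert.R3
import Vale.Agent.P062.Cert.R4
import Vale.Agent.P062.Cert.R5
import Vale.Agent.P062.Cert.R6
import Vale.Agent.P062.Cert.R7
import Vale.Agent.P062.Cert.R8

/-! Maker wins: all first replies are covered (generated). -/

namespace Vale.Agent.P062

/-- The roots used, with their symmetries. -/
def roots : List Root := [
  ((false, true, true), R6.root),
  ((false, false, false), R6.root),
  ((true, true, false), R6.root),
  ((false, false, true), R0.root),
  ((false, true, false), R0.root),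
  ((true, false, true), R0.root),
  ((false, false, false), R0.root),
  ((false, true, true), R0.root),
  ((true, true, false), R0.root),
  ((false, true, true), R2.root),
  ((false, false, false), R3.root),
  ((false, false, true), R3.root),
  ((false, true, false), R3.root),
  ((false, true, true), R3.root),
  ((true, false, false), R3.root),
  ((true, false, true), R3.root),
  ((true, true, false), R3.root),
  ((true, true, true), R3.root),
  ((true, false, true), R6.root),
  ((false, false, false), R1.root),
  ((false, false, true), R1.root),
  ((false, true, false), R1.root),
  ((false, true, true), R1.root),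
  ((true, false, false), R1.root),
  ((true, false, true), R1.root),
  ((true, true, false), R1.root),
  ((true, true, true), R1.root),
  ((false, false, true), R2.root),
  ((false, true, false), R2.root),
  ((false, false, false), R5.root),
  ((false, false, true), R5.root),
  ((false, true, false), R5.root),
  ((false, true, true), R5.root),
  ((false, false, false), R8.root),
  ((false, true, false), R8.root),
  ((true, false, false), R8.root),
  ((true, false, true), R8.root)]

theorem makerWins : MakerWins := by
  refine makerWins_of_roots (first := R2.root) (rs := roots) ?_ (by decide +kernel)
  intro s hs
  simp only [roots, List.map_cons, List.map_nil, List.mem_cons, List.not_mem_nil, or_false] at hs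
  rcases hs with rfl | rfl | rfl | rfl | rfl | rfl | rfl | rfl | rfl | rfl | rfl | rfl | rfl | rfl | rfl | rfl | rfl | rfl | rfl | rfl | rfl | rfl | rfl | rfl | rfl | rfl | rfl | rfl | rfl | rfl | rfl | rfl | rfl | rfl | rfl | rfl | rfl | rfl
  · exact R2.good_root
  · exact R6.good_root
  · exact R6.good_root
  · exact R6.good_root
  · exact R0.good_root
  · exact R0.good_root
  · exact R0.good_root
  · exact R0.good_root
  · exact R0.good_root
  · exact R0.good_root
  · exact R2.good_root
  · exact R3.good_root
  · exact R3.good_root
  · exact R3.good_root
  · exact R3.good_root
  · exact R3.good_root
  · exact R3.good_root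
  · exact R3.good_root
  · exact R3.good_root
  · exact R6.good_root
  · exact R1.good_root
  · exact R1.good_root
  · exact R1.good_root
  · exact R1.good_root
  · exact R1.good_root
  · exact R1.good_root
  · exact R1.good_root
  · exact R1.good_root
  · exact R2.good_root
  · exact R2.good_root
  · exact R5.good_root
  · exact R5.good_root
  · exact R5.good_root
  · exact R5.good_root
  · exact R8.good_root
  · exact R8.good_root
  · exact R8.good_root
  · exact R8.good_root

end Vale.Agent.P062
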