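import Vale.Agent.P062.Sym
import Mathlib.Data.Nat.Bitwise

/-!
A bottom-up certificate evaluator. Cells of a window are numbered `i = 20 * row + column`,
sets of cells are bit masks, in which only the positions from 64 on are read; the lower positions carry a
check word that keeps the kernel's hashes apart. Each evaluated node is a pair `(M, Z)`: whenever
Maker owns the cells of `M`, Breaker owns no cell of `Z` and Maker is to move, Maker wins.
-/

namespace Vale.Agent.P062

open Finset

/-- The cell with number `i`; the window starts at number 80. -/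
def dec (i : ℕ) : Cell := (((i % 20 : ℕ) : ℤ) - 10, ((i / 20 : ℕ) : ℤ) - 14)

theorem dec_injective : Function.Injective dec := by
  intro i j h
  simp only [dec, Prod.mk.injEq, sub_left_inj, Nat.cast_inj] at h
  omega

/-- Meaning of a certificate state. -/
def Good (s : ℕ × ℕ) : Prop :=
  ∃ k, ∀ A B : Finset Cell, (∀ i, 64 ≤ i → s.1.testBit i = true → dec i ∈ A) →
    (∀ i, 64 ≤ i → s.2.testBit i = true → dec i ∉ B) → Disjoint A B → WinIn k A B

/-- All states of a list are good. -/
def AllGood (l : List (ℕ × ℕ)) : Prop := ∀ s ∈ l, Good s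

theorem allGood_nil : AllGood [] := by
  intro s hs
  simp at hs

/-- Offsets of the cells of the eight shapes, normalised to a corner. -/
def shape : ℕ → List (ℕ × ℕ)
  | 0 => [(0, 0), (1, 0), (2, 0), (3, 0), (3, 1), (4, 1)]
  | 1 => [(0, 1), (1, 1), (2, 1), (3, 1), (3, 0), (4, 0)]
  | 2 => [(4, 0), (3, 0), (2, 0), (1, 0), (1, 1), (0, 1)]
  | 3 => [(4, 1), (3, 1), (2, 1), (1, 1), (1, 0), (0, 0)]
  | 4 => [(0, 0), (0, 1), (0, 2), (0, 3), (1, 3), (1, 4)]
  | 5 => [(0, 4), (0, 3), (0, 2), (0, 1), (1, 1), (1, 0)]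
  | 6 => [(1, 0), (1, 1), (1, 2), (1, 3), (0, 3), (0, 4)]
  | _ => [(1, 4), (1, 3), (1, 2), (1, 1), (0, 1), (0, 0)]

theorem shape_isCopy (g : ℕ) : ∃ (t : Cell) (R : Cell → Cell), IsSignedPerm R ∧
    ((shape g).map fun d => ((d.1 : ℤ), (d.2 : ℤ))).toFinset = snaky.image (fun p => t + R p) := by
  match g with
  | 0 => exact ⟨(0, 0), sy false false false, isSignedPerm_sy _ _ _, by decide⟩
  | 1 => exact ⟨(0, 1), sy false false true, isSignedPerm_sy _ _ _, by decide⟩
  | 2 => exact ⟨(4, 0), sy false true false, isSignedPerm_sy _ _ _, by decide⟩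
  | 3 => exact ⟨(4, 1), sy false true true, isSignedPerm_sy _ _ _, by decide⟩
  | 4 => exact ⟨(0, 0), sy true false false, isSignedPerm_sy _ _ _, by decide⟩
  | 5 => exact ⟨(0, 4), sy true false true, isSignedPerm_sy _ _ _, by decide⟩
  | 6 => exact ⟨(1, 0), sy true true false, isSignedPerm_sy _ _ _, by decide⟩
  | _ + 7 =>
    refine ⟨(1, 4), sy true true true, isSignedPerm_sy _ _ _, ?_⟩
    show ((shape 7).map fun d => ((d.1 : ℤ), (d.2 : ℤ))).toFinset = _
    decide

/-- The mask with the single bit `i`. -/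
def bit1 (i : ℕ) : ℕ := Nat.shiftLeft 1 i

theorem testBit_bit1 (i j : ℕ) : (bit1 i).testBit j = true ↔ i = j := by
  have : bit1 i = 2 ^ i := by
    show 1 <<< i = 2 ^ i
    rw [Nat.shiftLeft_eq, one_mul]
  rw [this, Nat.testBit_two_pow]
  simp

/-- Difference of masks. -/
def msub (a b : ℕ) : ℕ := Nat.xor a (Nat.land a b)

theorem testBit_msub (a b j : ℕ) :
    (msub a b).testBit j = true ↔ a.testBit j = true ∧ ¬ b.testBit j = true := by
  show (a ^^^ (a &&& b)).testBit j = true ↔ _
  rw [Nat.testBit_xor, Nat.testBit_and]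
  cases a.testBit j <;> cases b.testBit j <;> simp

theorem testBit_lor' (a b j : ℕ) :
    (Nat.lor a b).testBit j = true ↔ a.testBit j = true ∨ b.testBit j = true := by
  show (a ||| b).testBit j = true ↔ _
  simp

theorem testBit_land' (a b j : ℕ) :
    (Nat.land a b).testBit j = true ↔ a.testBit j = true ∧ b.testBit j = true := by
  show (a &&& b).testBit j = true ↔ _
  simp

/-- Mix a check word into the unread low positions. -/
def salt (v : ℕ) : ℕ := Nat.xor v (v % 2305843009213693951)

theorem testBit_salt (v : ℕ) {j : ℕ} (hj : 64 ≤ j) : (salt v).testBit j = v.testBit j := by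
  show (v ^^^ (v % 2305843009213693951)).testBit j = _
  have h : v % 2305843009213693951 < 2 ^ j := by
    have h1 : v % 2305843009213693951 < 2305843009213693951 := Nat.mod_lt v (by decide)
    have h2 : (2305843009213693951 : ℕ) ≤ 2 ^ 64 := by decide
    have h3 : (2 : ℕ) ^ 64 ≤ 2 ^ j := Nat.pow_le_pow_right (by decide) hj
    omega
  rw [Nat.testBit_xor, Nat.testBit_lt_two_pow h, Bool.xor_false]

/-- Whether a list of offsets fits in a row when attached at `b`. -/
def fits (b : ℕ) : List (ℕ × ℕ) → Bool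
  | [] => true
  | d :: l => Nat.blt (b % 20 + d.1) 20 && fits b l

/-- The mask of a list of offsets attached at `b`. -/
def maskAt (b : ℕ) : List (ℕ × ℕ) → ℕ
  | [] => 0
  | d :: l => Nat.lor (bit1 (b + (20 * d.2 + d.1))) (maskAt b l)

theorem maskAt_spec (b : ℕ) : ∀ l : List (ℕ × ℕ), fits b l = true → ∀ d ∈ l,
    ∃ i, b ≤ i ∧ (maskAt b l).testBit i = true ∧ dec i = dec b + ((d.1 : ℤ), (d.2 : ℤ))
  | [], _, d, hd => by simp at hd
  | e :: l, h, d, hd => by
    simp only [fits, Bool.and_eq_true] at h
    have h1 : b % 20 + e.1 < 20 := by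
      exact Nat.le_of_ble_eq_true h.1
    rcases List.mem_cons.1 hd with rfl | hd
    · refine ⟨b + (20 * d.2 + d.1), Nat.le_add_right _ _, ?_, ?_⟩
      · rw [maskAt, testBit_lor', testBit_bit1]
        exact Or.inl rfl
      · have e1 : (b + (20 * d.2 + d.1)) % 20 = b % 20 + d.1 := by omega
        have e2 : (b + (20 * d.2 + d.1)) / 20 = b / 20 + d.2 := by omega
        simp only [dec, e1, e2, Prod.mk_add_mk, Prod.mk.injEq]
        push_cast
        constructor <;> ring
    · obtain ⟨i, hbi, hi, e'⟩ := maskAt_spec b l h.2 d hd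
      refine ⟨i, hbi, ?_, e'⟩
      rw [maskAt, testBit_lor']
      exact Or.inr hi

theorem fits_mod (b : ℕ) : ∀ l : List (ℕ × ℕ), fits (b % 20) l = fits b l
  | [] => rfl
  | d :: l => by simp only [fits, Nat.mod_mod, fits_mod b l]

theorem testBit_shiftLeft' {m b i : ℕ} (h : m.testBit i = true) :
    (Nat.shiftLeft m b).testBit (b + i) = true := by
  show (m <<< b).testBit (b + i) = true
  rw [Nat.testBit_shiftLeft]
  simp [h]

theorem maskAt_shift (b j : ℕ) : ∀ l : List (ℕ × ℕ), (maskAt b l).testBit j = true →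
    (Nat.shiftLeft (maskAt 0 l) b).testBit j = true
  | [], h => by simp [maskAt] at h
  | d :: l, h => by
    rw [maskAt, testBit_lor', testBit_bit1] at h
    rcases h with rfl | h
    · refine testBit_shiftLeft' ?_
      rw [maskAt, testBit_lor', testBit_bit1]
      exact Or.inl (Nat.zero_add _)
    · have ih := maskAt_shift b j l h
      change ((maskAt 0 l) <<< b).testBit j = true at ih
      change ((maskAt 0 (d :: l)) <<< b).testBit j = true
      rw [Nat.testBit_shiftLeft, Bool.and_eq_true] at ih ⊢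
      exact ⟨ih.1, by rw [maskAt, testBit_lor']; exact Or.inr ih.2⟩

theorem exists_move {A B : Finset Cell} (hAB : Disjoint A B) {c : Cell} (hc : c ∉ B) :
    ∃ m, m ∉ A ∪ B ∧ insert c A ⊆ insert m A ∧ Disjoint (insert m A) B := by
  by_cases h : c ∈ A
  · obtain ⟨m, hm⟩ := exists_free (A ∪ B)
    refine ⟨m, hm, ?_, ?_⟩
    · rw [Finset.insert_eq_of_mem h]
      exact Finset.subset_insert _ _
    · exact Finset.disjoint_insert_left.2 ⟨fun hb => hm (Finset.mem_union_right _ hb), hAB⟩
  · exact ⟨c, by simp [h, hc], subset_rfl, Finset.disjoint_insert_left.2 ⟨hc, hAB⟩⟩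

theorem good_leaf (c g b : ℕ) (hc : 64 ≤ c) (hb : 64 ≤ b)
    (h : fits (b % 20) (shape g) = true) :
    Good (salt (msub (Nat.shiftLeft (maskAt 0 (shape g)) b) (bit1 c)), salt (bit1 c)) := by
  rw [fits_mod] at h
  refine ⟨1, fun A B hA hB hAB => ?_⟩
  obtain ⟨m, hm, hsub, -⟩ := exists_move hAB
    (hB c hc (by rw [testBit_salt _ hc]; exact (testBit_bit1 c c).2 rfl))
  refine Or.inr ⟨m, hm, fun d _ => ?_⟩
  obtain ⟨t, R, hR, hP⟩ := shape_isCopy g
  refine ⟨_, ⟨dec b + t, R, hR, rfl⟩, ?_⟩
  intro p hp
  simp only [Finset.mem_image] at hp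
  obtain ⟨q, hq, rfl⟩ := hp
  have hq' : t + R q ∈ snaky.image (fun p => t + R p) := Finset.mem_image.2 ⟨q, hq, rfl⟩
  rw [← hP, List.mem_toFinset, List.mem_map] at hq'
  obtain ⟨e, he, e'⟩ := hq'
  obtain ⟨i, hbi, hi, hdi⟩ := maskAt_spec b _ h e he
  rw [add_assoc, ← e', ← hdi]
  by_cases hic : i = c
  · subst hic
    exact hsub (Finset.mem_insert_self _ _)
  · refine hsub (Finset.mem_insert_of_mem (hA i (hb.trans hbi) ?_))
    rw [testBit_salt _ (hb.trans hbi), testBit_msub, testBit_bit1]
    exact ⟨maskAt_shift b i _ hi, fun e => hic e.symm⟩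

/-- Union of the `M` parts. -/
def uM : List (ℕ × ℕ) → ℕ
  | [] => 0
  | s :: l => Nat.lor s.1 (uM l)

/-- Union of the `Z` parts. -/
def uZ : List (ℕ × ℕ) → ℕ
  | [] => 0
  | s :: l => Nat.lor s.2 (uZ l)

/-- Intersection of the `Z` parts, starting from a first one. -/
def iZ : ℕ → List (ℕ × ℕ) → ℕ
  | a, [] => a
  | a, s :: l => Nat.land s.2 (iZ a l)

theorem mem_uM {i : ℕ} : ∀ {l : List (ℕ × ℕ)} {s : ℕ × ℕ}, s ∈ l → s.1.testBit i = true →
    (uM l).testBit i = true
  | [], s, hs, _ => by simp at hs
  | e :: l, s, hs, h => by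
    rw [uM, testBit_lor']
    rcases List.mem_cons.1 hs with rfl | hs
    · exact Or.inl h
    · exact Or.inr (mem_uM hs h)

theorem mem_uZ {i : ℕ} : ∀ {l : List (ℕ × ℕ)} {s : ℕ × ℕ}, s ∈ l → s.2.testBit i = true →
    (uZ l).testBit i = true
  | [], s, hs, _ => by simp at hs
  | e :: l, s, hs, h => by
    rw [uZ, testBit_lor']
    rcases List.mem_cons.1 hs with rfl | hs
    · exact Or.inl h
    · exact Or.inr (mem_uZ hs h)

theorem iZ_spec {i a : ℕ} : ∀ {l : List (ℕ × ℕ)}, a.testBit i = true →
    (∀ s ∈ l, s.2.testBit i = true) → (iZ a l).testBit i = true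
  | [], h, _ => by simpa [iZ] using h
  | e :: l, h, hl => by
    rw [iZ, testBit_land']
    exact ⟨hl e (by simp), iZ_spec h fun s hs => hl s (by simp [hs])⟩

/-- The `M` part of an inner node. -/
def nodeM (c : ℕ) (x : ℕ × ℕ) (l : List (ℕ × ℕ)) : ℕ :=
  salt (msub (Nat.lor (Nat.lor x.1 (uM l)) (iZ x.2 l)) (bit1 c))

/-- The `Z` part of an inner node. -/
def nodeZ (c : ℕ) (x : ℕ × ℕ) (l : List (ℕ × ℕ)) : ℕ :=
  salt (Nat.lor (msub (Nat.lor x.2 (uZ l)) (nodeM c x l)) (bit1 c))

theorem exists_bound : ∀ l : List (ℕ × ℕ), AllGood l → ∃ k, ∀ s ∈ l, ∀ A B : Finset Cell,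
    (∀ i, 64 ≤ i → s.1.testBit i = true → dec i ∈ A) →
    (∀ i, 64 ≤ i → s.2.testBit i = true → dec i ∉ B) → Disjoint A B → WinIn k A B
  | [], _ => ⟨0, fun s hs => by simp at hs⟩
  | e :: l, h => by
    obtain ⟨k, hk⟩ := exists_bound l fun s hs => h s (by simp [hs])
    obtain ⟨k', hk'⟩ := h e (by simp)
    refine ⟨max k k', fun s hs A B h1 h2 h3 => ?_⟩
    rcases List.mem_cons.1 hs with rfl | hs
    · exact (hk' A B h1 h2 h3).mono (le_max_right _ _)
    · exact (hk s hs A B h1 h2 h3).mono (le_max_left _ _)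

theorem good_node (c : ℕ) (hc : 64 ≤ c) (x : ℕ × ℕ) (l : List (ℕ × ℕ))
    (h : AllGood (x :: l)) :
    Good (nodeM c x l, nodeZ c x l) := by
  obtain ⟨k, hk⟩ := exists_bound _ h
  refine ⟨k + 1, fun A B hA hB hAB => ?_⟩
  have hcB : dec c ∉ B :=
    hB c hc (by rw [nodeZ, testBit_salt _ hc, testBit_lor', testBit_bit1]; exact Or.inr rfl)
  obtain ⟨m, hm, hsub, hdis⟩ := exists_move hAB hcB
  refine Or.inr ⟨m, hm, fun d hd => ?_⟩
  have hin : ∀ i, 64 ≤ i → (Nat.lor (Nat.lor x.1 (uM l)) (iZ x.2 l)).testBit i = true →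
      dec i ∈ insert m A := by
    intro i h64 hi
    by_cases hic : i = c
    · subst hic
      exact hsub (Finset.mem_insert_self _ _)
    · refine hsub (Finset.mem_insert_of_mem (hA i h64 ?_))
      rw [nodeM, testBit_salt _ h64, testBit_msub, testBit_bit1]
      exact ⟨hi, fun e => hic e.symm⟩
  obtain ⟨s, hs, hfree⟩ : ∃ s ∈ x :: l, ∀ i, 64 ≤ i → s.2.testBit i = true → dec i ≠ d := by
    by_contra hcon
    push Not at hcon
    obtain ⟨i, h64, hi, e⟩ := hcon x (by simp)
    refine hd (Finset.mem_union_left _ (e ▸ hin i h64 ?_))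
    rw [testBit_lor']
    refine Or.inr (iZ_spec hi fun s hs => ?_)
    obtain ⟨j, -, hj, e'⟩ := hcon s (by simp [hs])
    rwa [dec_injective (e.trans e'.symm)]
  refine hk s hs _ _ (fun i h64 hi => hin i h64 ?_) (fun i h64 hi => ?_) ?_
  · rw [testBit_lor', testBit_lor']
    rcases List.mem_cons.1 hs with rfl | hs
    · exact Or.inl (Or.inl hi)
    · exact Or.inl (Or.inr (mem_uM hs hi))
  · simp only [Finset.mem_insert, not_or]
    refine ⟨hfree i h64 hi, ?_⟩
    by_cases hM : (nodeM c x l).testBit i = true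
    · exact Finset.disjoint_left.1 hAB (hA i h64 hM)
    · refine hB i h64 ?_
      rw [nodeZ, testBit_salt _ h64, testBit_lor', testBit_msub, testBit_lor']
      refine Or.inl ⟨?_, hM⟩
      rcases List.mem_cons.1 hs with rfl | hs
      · exact Or.inl hi
      · exact Or.inr (mem_uZ hs hi)
  · simp only [Finset.mem_union, not_or] at hd
    exact Finset.disjoint_insert_right.2 ⟨hd.1, hdis⟩

/-! ### The evaluator -/

/-- Strict evaluation of a number before passing it on. -/
def force {α : Type} (n : ℕ) (f : ℕ → α) : α :=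
  match n with
  | 0 => f 0
  | m + 1 => f (m + 1)

theorem force_eq {α : Type} (n : ℕ) (f : ℕ → α) : force n f = f n := by
  cases n <;> rfl

/-- Complete binary trees of states. -/
inductive Tr : Type
  | lf (M Z : ℕ)
  | nd (M Z : ℕ) (l r : Tr)

/-- All states in a tree are good. -/
def Tr.Ok : Tr → Prop
  | .lf M Z => Good (M, Z)
  | .nd M Z l r => Good (M, Z) ∧ l.Ok ∧ r.Ok

/-- The state at the top of a tree. -/
def Tr.top : Tr → ℕ × ℕ
  | .lf M Z => (M, Z)
  | .nd M Z _ _ => (M, Z)

theorem Tr.Ok.top : ∀ {t : Tr}, t.Ok → Good t.top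
  | .lf _ _, h => h
  | .nd _ _ _ _, h => h.1

/-- Lookup in a tree with `w` entries, in preorder. -/
noncomputable def Tr.get (t : Tr) (w d : ℕ) : ℕ × ℕ :=
  Tr.rec (motive := fun _ => ℕ → ℕ → ℕ × ℕ) (fun M Z _ _ => (M, Z))
    (fun M Z _ _ ihl ihr w d =>
      Nat.rec (motive := fun _ => ℕ × ℕ) (M, Z)
        (fun d' _ => force (w / 2) fun h =>
          match Nat.blt d' h with
          | true => ihl h d'
          | false => force (d' - h) fun e => ihr h e) d) t w d

theorem Tr.good_get : ∀ {t : Tr}, t.Ok → ∀ w d, Good (t.get w d)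
  | .lf _ _, h, _, _ => h
  | .nd M Z l r, h, w, 0 => h.1
  | .nd M Z l r, h, w, d + 1 => by
    show Good (force (w / 2) fun h => match Nat.blt d h with
      | true => l.get h d
      | false => force (d - h) fun e => r.get h e)
    rw [force_eq]
    cases Nat.blt d (w / 2) with
    | true => exact Tr.good_get h.2.1 _ _
    | false =>
      show Good (force (d - w / 2) fun e => r.get (w / 2) e)
      rw [force_eq]
      exact Tr.good_get h.2.2 _ _

/-- A memory: trees with their numbers of entries, newest state first. -/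
abbrev Mem : Type := List (ℕ × Tr)

/-- All states in a memory are good. -/
def Mem.Ok (m : Mem) : Prop := ∀ p ∈ m, p.2.Ok

/-- Put a state in front. -/
def push (M Z : ℕ) : Mem → Mem
  | [] => [(1, .lf M Z)]
  | [p] => [(1, .lf M Z), p]
  | (w, t) :: (w', t') :: m =>
    match Nat.beq w w' with
    | true => force (w + w' + 1) fun v => (v, .nd M Z t t') :: m
    | false => (1, .lf M Z) :: (w, t) :: (w', t') :: m

theorem ok_push {M Z : ℕ} (h : Good (M, Z)) : ∀ {m : Mem}, m.Ok → Mem.Ok (push M Z m)
  | [], _ => by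
    intro p hp
    simp only [push, List.mem_singleton] at hp
    subst hp
    exact h
  | [q], hm => by
    intro p hp
    simp only [push, List.mem_cons, List.not_mem_nil, or_false] at hp
    rcases hp with rfl | rfl
    · exact h
    · exact hm _ (by simp)
  | (w, t) :: (w', t') :: m, hm => by
    simp only [push]
    cases Nat.beq w w' with
    | true =>
      show Mem.Ok (force (w + w' + 1) fun v => (v, Tr.nd M Z t t') :: m)
      rw [force_eq]
      intro p hp
      rcases List.mem_cons.1 hp with rfl | hp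
      · exact ⟨h, hm (w, t) (by simp), hm (w', t') (by simp)⟩
      · exact hm p (by simp [hp])
    | false =>
      intro p hp
      rcases List.mem_cons.1 hp with rfl | hp
      · exact h
      · exact hm p hp

/-- The state with index `d`, or the given default. -/
noncomputable def look (m : Mem) (d : ℕ) (y : ℕ × ℕ) : ℕ × ℕ :=
  List.rec (motive := fun _ => ℕ → ℕ × ℕ) (fun _ => y)
    (fun p _ ih d =>
      match Nat.blt d p.1 with
      | true => p.2.get p.1 d
      | false => force (d - p.1) fun e => ih e) m d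

theorem good_look {y : ℕ × ℕ} (hy : Good y) : ∀ {m : Mem}, m.Ok → ∀ d, Good (look m d y)
  | [], _, _ => hy
  | p :: m, hm, d => by
    show Good (match Nat.blt d p.1 with
      | true => p.2.get p.1 d
      | false => force (d - p.1) fun e => look m e y)
    cases Nat.blt d p.1 with
    | true => exact Tr.good_get (hm p (by simp)) _ _
    | false =>
      show Good (force (d - p.1) fun e => look m e y)
      rw [force_eq]
      exact good_look hy (fun q hq => hm q (by simp [hq])) _

/-- The children coded by the base-4096 digits of `r`, digit `d + 1` meaning index `d`. -/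
noncomputable def kids (mem : Mem) (y : ℕ × ℕ) : ℕ → ℕ → List (ℕ × ℕ)
  | 0, _ => []
  | _ + 1, 0 => []
  | f + 1, r + 1 => look mem ((r + 1) % 4096 - 1) y :: kids mem y f ((r + 1) / 4096)

theorem allGood_kids {mem : Mem} {y : ℕ × ℕ} (hm : mem.Ok) (hy : Good y) :
    ∀ f r, AllGood (kids mem y f r)
  | 0, _ => allGood_nil
  | _ + 1, 0 => allGood_nil
  | f + 1, r + 1 => by
    intro s hs
    rw [kids] at hs
    rcases List.mem_cons.1 hs with rfl | hs
    · exact good_look hy hm _
    · exact allGood_kids hm hy f _ s hs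

/-- Evaluate a coded leaf. -/
def stepLeaf (c r : ℕ) (mem : Mem) : Mem :=
  match Nat.ble 64 c && Nat.ble 64 (r / 8) &&
      force (r / 8 % 20) (fun b => force (r % 8) fun g => fits b (shape g)) with
  | true =>
    force (salt (msub (force (r % 8) fun g => Nat.shiftLeft (maskAt 0 (shape g)) (r / 8))
      (bit1 c))) fun M =>
    force (salt (bit1 c)) fun Z => push M Z mem
  | false => mem

/-- Evaluate a coded inner node, given its children. -/
def stepWith (c : ℕ) (x : ℕ × ℕ) (l : List (ℕ × ℕ)) (mem : Mem) : Mem :=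
  force (nodeM c x l) fun M => force (nodeZ c x l) fun Z => push M Z mem

/-- Evaluate a coded inner node. -/
noncomputable def stepNode (c r : ℕ) : Mem → Mem
  | [] => []
  | p :: mem =>
    match Nat.ble 64 c with
    | false => p :: mem
    | true => stepWith c (look (p :: mem) (r % 4096 - 1) p.2.top)
      (kids (p :: mem) p.2.top 64 (r / 4096)) (p :: mem)

/-- Evaluate one coded node. -/
noncomputable def step (n : ℕ) (mem : Mem) : Mem :=
  match n % 2 with
  | 0 => stepNode (n / 2 % 1024) (n / 2048) mem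
  | _ + 1 => stepLeaf (n / 2 % 1024) (n / 2048) mem

theorem allGood_cons {s : ℕ × ℕ} {l : List (ℕ × ℕ)} (hs : Good s) (hl : AllGood l) :
    AllGood (s :: l) := fun t ht => by
  rcases List.mem_cons.1 ht with rfl | ht
  · exact hs
  · exact hl t ht

theorem ok_step (n : ℕ) {mem : Mem} (h : mem.Ok) : (step n mem).Ok := by
  unfold step
  split
  · cases mem with
    | nil => exact h
    | cons p mem =>
      have hy : Good p.2.top := (h p List.mem_cons_self).top
      simp only [stepNode]
      split
      next => exact h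
      next hc =>
      simp only [stepWith, force_eq]
      exact ok_push (good_node _ (Nat.le_of_ble_eq_true hc) _ _
        (allGood_cons (good_look hy h _) (allGood_kids h hy _ _))) h
  · unfold stepLeaf
    split
    next hf =>
      simp only [force_eq, Bool.and_eq_true] at hf ⊢
      exact ok_push (good_leaf _ _ _ (Nat.le_of_ble_eq_true hf.1.1)
        (Nat.le_of_ble_eq_true hf.1.2) hf.2) h
    next => exact h

/-- Evaluate a list of coded nodes. -/
noncomputable def run : List ℕ → Mem → Mem
  | [], mem => mem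
  | n :: ns, mem =>
    match step n mem with
    | [] => []
    | p :: m => run ns (p :: m)

theorem ok_run : ∀ (ns : List ℕ) {mem : Mem}, mem.Ok → (run ns mem).Ok
  | [], _, h => h
  | n :: ns, mem, h => by
    have h' := ok_step n h
    rw [run]
    split
    · exact fun p hp => by simp at hp
    · next heq => exact ok_run ns (heq ▸ h')

/-- The memory holding the given states, the first one newest. -/
def load : List (ℕ × ℕ) → Mem
  | [] => []
  | s :: l => push s.1 s.2 (load l)

theorem ok_load : ∀ {l : List (ℕ × ℕ)}, AllGood l → (load l).Ok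
  | [], _ => fun p hp => by simp [load] at hp
  | s :: l, h => ok_push (h s List.mem_cons_self) (ok_load fun t ht => h t (List.mem_cons_of_mem _ ht))

/-- Compare the claimed exports with the states at the given indices. -/
noncomputable def picked (mem : Mem) : List (ℕ × ℕ × ℕ) → Bool
  | [] => true
  | (d, e) :: l =>
    match mem with
    | [] => false
    | p :: rest =>
      let s := look (p :: rest) d p.2.top
      Nat.beq s.1 e.1 && Nat.beq s.2 e.2 && picked (p :: rest) l

theorem picked_spec {mem : Mem} (hm : mem.Ok) : ∀ (l : List (ℕ × ℕ × ℕ)),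
    picked mem l = true → AllGood (l.map Prod.snd)
  | [], _ => allGood_nil
  | (d, e) :: l, h => by
    cases mem with
    | nil => simp [picked] at h
    | cons p rest =>
      simp only [picked, Bool.and_eq_true] at h
      obtain ⟨⟨h1, h2⟩, h3⟩ := h
      refine allGood_cons ?_ (picked_spec hm l h3)
      have he : e = look (p :: rest) d p.2.top :=
        Prod.ext (Nat.eq_of_beq_eq_true h1).symm (Nat.eq_of_beq_eq_true h2).symm
      rw [he]
      exact good_look (hm p List.mem_cons_self).top hm d

/-- A checked chunk of a certificate. -/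
theorem chunk {I : List (ℕ × ℕ)} (hI : AllGood I) (ns : List ℕ) (E : List (ℕ × ℕ × ℕ))
    (h : picked (run ns (load I)) E = true) : AllGood (E.map Prod.snd) :=
  picked_spec (ok_run ns (ok_load hI)) E h

end Vale.Agent.P062
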