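import Mathlib.Data.Finset.Image
import Mathlib.Algebra.Group.Prod
import Mathlib.Data.Fintype.Basic

/-!
The Snaky achievement game on the square grid: Maker moves first, the players alternately
claim one unclaimed cell each, Maker aims to own all cells of an allowed copy of Snaky.
-/

namespace Vale.Agent.P062

/-- A cell of the square grid, indexed by its lower-left corner. -/
abbrev Cell : Type := ℤ × ℤ

/-- The hexomino Snaky. -/
def snaky : Finset Cell := {(0, 0), (1, 0), (2, 0), (3, 0), (3, 1), (4, 1)}

/-- The eight maps given by 2 × 2 signed permutation matrices. -/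
def IsSignedPerm (R : Cell → Cell) : Prop :=
  ∃ a b : ℤ, (a = 1 ∨ a = -1) ∧ (b = 1 ∨ b = -1) ∧
    ((∀ x y : ℤ, R (x, y) = (a * x, b * y)) ∨ (∀ x y : ℤ, R (x, y) = (a * y, b * x)))

/-- An allowed copy of Snaky: a translate of the image under a signed permutation. -/
def IsAllowedCopy (P : Finset Cell) : Prop :=
  ∃ (t : Cell) (R : Cell → Cell), IsSignedPerm R ∧ P = snaky.image (fun p => t + R p)

/-- Maker's move number `k` (counted from 0) under strategy `σ`, a function of the list of
Breaker's earlier moves, when Breaker plays the sequence `b`. -/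
def makerMove (σ : List Cell → Cell) (b : ℕ → Cell) (k : ℕ) : Cell :=
  σ ((List.range k).map b)

/-- Breaker's first `n` moves claim unclaimed cells; Breaker's move `k` follows Maker's move `k`. -/
def BreakerLegal (σ : List Cell → Cell) (b : ℕ → Cell) (n : ℕ) : Prop :=
  ∀ k < n, (∀ i < k, b k ≠ b i) ∧ (∀ i ≤ k, b k ≠ makerMove σ b i)

/-- Against legal Breaker play, the strategy always claims an unclaimed cell. -/
def MakerLegal (σ : List Cell → Cell) : Prop :=
  ∀ (b : ℕ → Cell) (n : ℕ), BreakerLegal σ b n →
    ∀ i < n, makerMove σ b n ≠ makerMove σ b i ∧ makerMove σ b n ≠ b i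

/-- Some legal Maker strategy owns an allowed copy within a bounded number of turns against
every legal Breaker play. -/
def MakerWins : Prop :=
  ∃ (σ : List Cell → Cell) (N : ℕ), MakerLegal σ ∧
    ∀ b : ℕ → Cell, BreakerLegal σ b N →
      ∃ P : Finset Cell, IsAllowedCopy P ∧ ∀ p ∈ P, ∃ i ≤ N, makerMove σ b i = p

end Vale.Agent.P062
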