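import Vale.Agent.P062.Game
import Mathlib.Data.Finset.Basic
import Mathlib.Data.Fintype.EquivFin
import Mathlib.Data.Fintype.Prod

/-! A game tree predicate for positions and its conversion into a strategy. -/

namespace Vale.Agent.P062

open Finset

/-- Maker owns an allowed copy. -/
def HasCopy (A : Finset Cell) : Prop := ∃ P, IsAllowedCopy P ∧ P ⊆ A

theorem HasCopy.mono {A A' : Finset Cell} (h : HasCopy A) (hs : A ⊆ A') : HasCopy A' := by
  obtain ⟨P, h1, h2⟩ := h
  exact ⟨P, h1, h2.trans hs⟩

/-- Maker, to move, can own a copy within `k` further moves. -/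
def WinIn : ℕ → Finset Cell → Finset Cell → Prop
  | 0, A, _ => HasCopy A
  | k + 1, A, B => HasCopy A ∨ ∃ m, m ∉ A ∪ B ∧
      ∀ b, b ∉ insert m A ∪ B → WinIn k (insert m A) (insert b B)

theorem exists_free (A : Finset Cell) : ∃ m : Cell, m ∉ A :=
  Infinite.exists_notMem_finset A

theorem WinIn.of_hasCopy : ∀ {k : ℕ} {A B : Finset Cell}, HasCopy A → WinIn k A B
  | 0, _, _, h => h
  | _ + 1, _, _, h => Or.inl h

theorem WinIn.succ : ∀ {k : ℕ} {A B : Finset Cell}, WinIn k A B → WinIn (k + 1) A B
  | 0, _, _, h => Or.inl h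
  | k + 1, A, B, h => by
    rcases h with h | ⟨m, hm, h⟩
    · exact Or.inl h
    · exact Or.inr ⟨m, hm, fun b hb => (h b hb).succ⟩

theorem WinIn.mono {k l : ℕ} {A B : Finset Cell} (h : WinIn k A B) (hkl : k ≤ l) :
    WinIn l A B := by
  induction hkl with
  | refl => exact h
  | step _ ih => exact ih.succ

open Classical in
/-- The move chosen in a position with `k` moves left. -/
noncomputable def choice (k : ℕ) (A B : Finset Cell) : Cell :=
  if h : ∃ m, m ∉ A ∪ B ∧ ∀ b, b ∉ insert m A ∪ B → WinIn (k - 1) (insert m A) (insert b B) then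
    h.choose
  else (exists_free (A ∪ B)).choose

theorem choice_notMem (k : ℕ) (A B : Finset Cell) : choice k A B ∉ A ∪ B := by
  unfold choice
  split
  next h => exact h.choose_spec.1
  next h => exact (exists_free (A ∪ B)).choose_spec

theorem choice_spec {k : ℕ} {A B : Finset Cell} (h : WinIn (k + 1) A B) (b : Cell)
    (hb : b ∉ insert (choice (k + 1) A B) A ∪ B) :
    WinIn k (insert (choice (k + 1) A B) A) (insert b B) := by
  rcases h with h | h
  · exact WinIn.of_hasCopy (h.mono (Finset.subset_insert _ _))
  · unfold choice at hb ⊢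
    rw [dif_pos (by simpa using h)] at hb ⊢
    simpa using (Exists.choose_spec (show ∃ m, m ∉ A ∪ B ∧ ∀ b, b ∉ insert m A ∪ B →
      WinIn (k + 1 - 1) (insert m A) (insert b B) by simpa using h)).2 b hb

/-- The move in a position: a fixed first cell, then the chosen move. -/
noncomputable def mv (c : Cell) (k : ℕ) (A B : Finset Cell) : Cell :=
  if A ∪ B = ∅ then c else choice k A B

theorem mv_notMem (c : Cell) (k : ℕ) (A B : Finset Cell) : mv c k A B ∉ A ∪ B := by
  unfold mv
  split
  next h => simp [h]
  next h => exact choice_notMem k A B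

/-- The position reached after the given Breaker history: remaining budget, Maker's cells,
Breaker's cells. -/
noncomputable def posOf (c : Cell) (N : ℕ) (bs : List Cell) : ℕ × Finset Cell × Finset Cell :=
  bs.foldl (fun s b => (s.1 - 1, insert (mv c s.1 s.2.1 s.2.2) s.2.1, insert b s.2.2)) (N, ∅, ∅)

/-- The strategy with first cell `c` induced by the choice function. -/
noncomputable def stratOf (c : Cell) (N : ℕ) (bs : List Cell) : Cell :=
  mv c (posOf c N bs).1 (posOf c N bs).2.1 (posOf c N bs).2.2

/-- The position after `j` rounds. -/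
noncomputable def at' (c : Cell) (N : ℕ) (b : ℕ → Cell) (j : ℕ) :
    ℕ × Finset Cell × Finset Cell :=
  posOf c N ((List.range j).map b)

theorem makerMove_stratOf (c : Cell) (N : ℕ) (b : ℕ → Cell) (j : ℕ) :
    makerMove (stratOf c N) b j =
      mv c (at' c N b j).1 (at' c N b j).2.1 (at' c N b j).2.2 := rfl

theorem at'_succ (c : Cell) (N : ℕ) (b : ℕ → Cell) (j : ℕ) :
    at' c N b (j + 1) = ((at' c N b j).1 - 1,
      insert (makerMove (stratOf c N) b j) (at' c N b j).2.1,
      insert (b j) (at' c N b j).2.2) := by
  rw [makerMove_stratOf]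
  simp only [at', posOf, List.range_succ, List.map_append, List.map_cons, List.map_nil,
    List.foldl_append, List.foldl_cons, List.foldl_nil]

theorem at'_eq (c : Cell) (N : ℕ) (b : ℕ → Cell) (j : ℕ) :
    at' c N b j = (N - j, (Finset.range j).image (makerMove (stratOf c N) b),
      (Finset.range j).image b) := by
  induction j with
  | zero => rfl
  | succ j ih =>
    rw [at'_succ, ih]
    simp only [Finset.range_add_one, Finset.image_insert]
    rfl

theorem makerLegal_stratOf (c : Cell) (N : ℕ) : MakerLegal (stratOf c N) := by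
  intro b n _ i hi
  have h := mv_notMem c (at' c N b n).1 (at' c N b n).2.1 (at' c N b n).2.2
  rw [← makerMove_stratOf, at'_eq] at h
  simp only [Finset.mem_union, Finset.mem_image, Finset.mem_range, not_or, not_exists,
    not_and] at h
  exact ⟨fun e => h.1 i hi e.symm, fun e => h.2 i hi e.symm⟩

theorem stratOf_nil (c : Cell) (N : ℕ) : stratOf c N [] = c := by
  simp [stratOf, posOf, mv]

/-- Game trees after the first round yield a strategy for all replies in `Q`. -/
theorem strategy_of_winIn (c : Cell) (k : ℕ) (Q : Set Cell)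
    (h : ∀ p, p ≠ c → p ∈ Q → WinIn k {c} {p}) :
    ∃ σ : List Cell → Cell, MakerLegal σ ∧ σ [] = c ∧
      ∀ b : ℕ → Cell, BreakerLegal σ b (k + 1) → b 0 ∈ Q →
        ∃ P : Finset Cell, IsAllowedCopy P ∧ ∀ p ∈ P, ∃ i ≤ k + 1, makerMove σ b i = p := by
  refine ⟨stratOf c (k + 1), makerLegal_stratOf c (k + 1), stratOf_nil c (k + 1),
    fun b hb hQ => ?_⟩
  set m := makerMove (stratOf c (k + 1)) b with hm
  have hm0 : m 0 = c := stratOf_nil c (k + 1)
  have key : ∀ j, j + 1 ≤ k + 1 → WinIn (k - j) ((Finset.range (j + 1)).image m)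
      ((Finset.range (j + 1)).image b) := by
    intro j
    induction j with
    | zero =>
      intro _
      have hne : b 0 ≠ c := hm0 ▸ (hb 0 (by omega)).2 0 le_rfl
      simpa [hm0] using h (b 0) hne hQ
    | succ j ih =>
      intro hj
      have hj' : k - j = (k - (j + 1)) + 1 := by omega
      have hw := ih (by omega)
      rw [hj'] at hw
      have hmv : m (j + 1) = choice (k - (j + 1) + 1) ((Finset.range (j + 1)).image m)
          ((Finset.range (j + 1)).image b) := by
        rw [hm, makerMove_stratOf, at'_eq, mv, if_neg]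
        · congr 1
          omega
        · exact Finset.nonempty_iff_ne_empty.1 ⟨b 0, Finset.mem_union_right _
            (Finset.mem_image.2 ⟨0, Finset.mem_range.2 (by omega), rfl⟩)⟩
      have hfree : b (j + 1) ∉ insert (m (j + 1)) ((Finset.range (j + 1)).image m) ∪
          (Finset.range (j + 1)).image b := by
        obtain ⟨h1, h2⟩ := hb (j + 1) (by omega)
        simp only [Finset.mem_union, Finset.mem_insert, Finset.mem_image, Finset.mem_range,
          not_or, not_exists, not_and]
        exact ⟨⟨h2 _ le_rfl, fun i hi e => h2 i hi.le e.symm⟩, fun i hi e => h1 i hi e.symm⟩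
      rw [hmv] at hfree
      have := choice_spec hw (b (j + 1)) hfree
      rw [← hmv] at this
      simpa [Finset.range_add_one, Finset.image_insert] using this
  have hN := key k le_rfl
  rw [Nat.sub_self] at hN
  obtain ⟨P, hP, hsub⟩ := hN
  refine ⟨P, hP, fun p hp => ?_⟩
  have hp' := hsub hp
  simp only [Finset.mem_image, Finset.mem_range] at hp'
  obtain ⟨i, hi, e⟩ := hp'
  exact ⟨i, hi.le, e⟩

/-- Game trees against every first reply yield a winning strategy. -/
theorem makerWins_of_winIn (c : Cell) (k : ℕ) (h : ∀ p, p ≠ c → WinIn k {c} {p}) : MakerWins := by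
  obtain ⟨σ, h1, -, h3⟩ := strategy_of_winIn c k Set.univ fun p hp _ => h p hp
  exact ⟨σ, k + 1, h1, fun b hb => h3 b hb trivial⟩

/-- Breaker always has legal play. -/
theorem exists_breakerLegal (σ : List Cell → Cell) : ∀ n, ∃ b : ℕ → Cell, BreakerLegal σ b n
  | 0 => ⟨fun _ => 0, fun k hk => absurd hk (Nat.not_lt_zero k)⟩
  | n + 1 => by
    obtain ⟨b, hb⟩ := exists_breakerLegal σ n
    obtain ⟨x, hx⟩ := exists_free
      ((Finset.range n).image b ∪ (Finset.range (n + 1)).image (makerMove σ b))
    simp only [Finset.mem_union, Finset.mem_image, Finset.mem_range, not_or, not_exists,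
      not_and] at hx
    refine ⟨Function.update b n x, fun k hk => ?_⟩
    have hb' : ∀ i, i < n → Function.update b n x i = b i :=
      fun i hi => Function.update_of_ne hi.ne _ _
    have hmk : ∀ i, i ≤ n → makerMove σ (Function.update b n x) i = makerMove σ b i := by
      intro i hi
      unfold makerMove
      congr 1
      exact List.map_congr_left fun a ha => hb' a ((List.mem_range.1 ha).trans_le hi)
    rcases Nat.lt_succ_iff_lt_or_eq.1 hk with h | rfl
    · refine ⟨fun i hi => ?_, fun i hi => ?_⟩
      · rw [hb' k h, hb' i (hi.trans h)]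
        exact (hb k h).1 i hi
      · rw [hb' k h, hmk i (hi.trans h.le)]
        exact (hb k h).2 i hi
    · rw [Function.update_self]
      refine ⟨fun i hi => ?_, fun i hi => ?_⟩
      · rw [hb' i hi]
        exact fun e => hx.1 i hi e.symm
      · rw [hmk i hi]
        exact fun e => hx.2 i (Nat.lt_succ_of_le hi) e.symm

end Vale.Agent.P062
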