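import Vale.Agent.P062.Strategy
import Mathlib.Logic.Equiv.Defs
import Mathlib.Tactic.Ring

/-! The eight symmetries of the game. -/

namespace Vale.Agent.P062

open Finset

/-- Sign of a flag. -/
def sgn (a : Bool) : ℤ := if a then -1 else 1

theorem sgn_cases (a : Bool) : sgn a = 1 ∨ sgn a = -1 := by cases a <;> simp [sgn]

theorem sgn_mul_sgn (a : Bool) (x : ℤ) : sgn a * (sgn a * x) = x := by
  cases a <;> simp [sgn]

/-- A signed coordinate permutation. -/
def sy (s a b : Bool) (p : Cell) : Cell :=
  if s then (sgn a * p.2, sgn b * p.1) else (sgn a * p.1, sgn b * p.2)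

theorem isSignedPerm_sy (s a b : Bool) : IsSignedPerm (sy s a b) := by
  refine ⟨sgn a, sgn b, sgn_cases a, sgn_cases b, ?_⟩
  cases s
  · exact Or.inl fun x y => rfl
  · exact Or.inr fun x y => rfl

theorem sy_inv (s a b : Bool) (p : Cell) :
    sy s (if s then b else a) (if s then a else b) (sy s a b p) = p := by
  cases s <;> simp [sy, sgn_mul_sgn]

/-- The signed coordinate permutation as a bijection. -/
def syE (s a b : Bool) : Cell ≃ Cell where
  toFun := sy s a b
  invFun := sy s (if s then b else a) (if s then a else b)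
  left_inv := sy_inv s a b
  right_inv := fun p => by
    cases s <;> simp [sy, sgn_mul_sgn]

theorem sy_add (s a b : Bool) (p q : Cell) : sy s a b (p + q) = sy s a b p + sy s a b q := by
  cases s <;> simp [sy, mul_add]

theorem isSignedPerm_comp (s a b : Bool) {R : Cell → Cell} (hR : IsSignedPerm R) :
    IsSignedPerm (sy s a b ∘ R) := by
  obtain ⟨c, d, hc, hd, h⟩ := hR
  have key : ∀ (e : Bool) (x : ℤ), (x = 1 ∨ x = -1) → sgn e * x = 1 ∨ sgn e * x = -1 := by
    intro e x hx
    cases e <;> rcases hx with rfl | rfl <;> simp [sgn]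
  cases s
  · refine ⟨sgn a * c, sgn b * d, key a c hc, key b d hd, ?_⟩
    rcases h with h | h
    · exact Or.inl fun x y => by simp [sy, h, mul_assoc]
    · exact Or.inr fun x y => by simp [sy, h, mul_assoc]
  · refine ⟨sgn a * d, sgn b * c, key a d hd, key b c hc, ?_⟩
    rcases h with h | h
    · exact Or.inr fun x y => by simp [sy, h, mul_assoc]
    · exact Or.inl fun x y => by simp [sy, h, mul_assoc]

theorem hasCopy_sy (s a b : Bool) {A : Finset Cell} (h : HasCopy A) :
    HasCopy (A.image (sy s a b)) := by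
  obtain ⟨P, ⟨t, R, hR, rfl⟩, hs⟩ := h
  refine ⟨_, ⟨sy s a b t, sy s a b ∘ R, isSignedPerm_comp s a b hR, rfl⟩, ?_⟩
  intro p hp
  simp only [Finset.mem_image, Function.comp] at hp ⊢
  obtain ⟨q, hq, rfl⟩ := hp
  exact ⟨t + R q, hs (Finset.mem_image.2 ⟨q, hq, rfl⟩), sy_add s a b _ _⟩

theorem winIn_sy (s a b : Bool) : ∀ {k : ℕ} {A B : Finset Cell}, WinIn k A B →
    WinIn k (A.image (sy s a b)) (B.image (sy s a b))
  | 0, _, _, h => hasCopy_sy s a b h
  | k + 1, A, B, h => by
    rcases h with h | ⟨m, hm, h⟩
    · exact Or.inl (hasCopy_sy s a b h)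
    · have hi : Function.Injective (sy s a b) := (syE s a b).injective
      refine Or.inr ⟨sy s a b m, ?_, fun c hc => ?_⟩
      · rw [← Finset.image_union, hi.mem_finset_image]
        exact hm
      · obtain ⟨c', rfl⟩ := (syE s a b).surjective c
        change sy s a b c' ∉ _ at hc
        change WinIn k _ (insert (sy s a b c') _)
        rw [← Finset.image_insert, ← Finset.image_union, hi.mem_finset_image] at hc
        simpa [Finset.image_insert] using winIn_sy s a b (h c' hc)

end Vale.Agent.P062
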