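import Vale.Agent.P062.Check

/-! The first move: a family of roots covering every reply yields a winning strategy. -/

namespace Vale.Agent.P062

open Finset

/-- The number of a cell, if it has one. -/
def enc (p : Cell) : Option ℕ :=
  if -10 ≤ p.1 ∧ p.1 < 10 ∧ -14 ≤ p.2 then some ((p.2 + 14).toNat * 20 + (p.1 + 10).toNat)
  else none

theorem enc_dec (j : ℕ) : enc (dec j) = some j := by
  unfold enc dec
  rw [if_pos (by constructor <;> [skip; constructor] <;> omega)]
  congr 1
  omega

/-- No cell of the mask `Z` is `p`. -/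
def freeAt (p : Cell) (Z : ℕ) : Bool :=
  match enc p with
  | none => true
  | some j => !Z.testBit j

theorem freeAt_spec {p : Cell} {Z : ℕ} (h : freeAt p Z = true) :
    ∀ j, 64 ≤ j → Z.testBit j = true → dec j ≠ p := by
  rintro j - hj rfl
  rw [freeAt, enc_dec] at h
  simp [hj] at h

/-- A root with a symmetry: three flags and a state. -/
abbrev Root : Type := (Bool × Bool × Bool) × ℕ × ℕ

/-- Whether root `r` handles the reply `p`. -/
def covers (p : Cell) (r : Root) : Bool :=
  freeAt ((syE r.1.1 r.1.2.1 r.1.2.2).symm p) r.2.2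

/-- Whether a mask reads as a subset of the origin. -/
def onlyOrigin (M : ℕ) : Bool :=
  Nat.beq (Nat.shiftRight M 64) 0 || Nat.beq (Nat.shiftRight M 64) (bit1 226)

/-- The check for the first move: every root only needs the origin, and every reply is handled. -/
def topCheck (first : ℕ × ℕ) (rs : List Root) : Bool :=
  onlyOrigin first.1 && rs.all (fun r => onlyOrigin r.2.1) &&
  Nat.blt first.2 (2 ^ 480) &&
  (List.range 416).all (fun i =>
    !first.2.testBit (i + 64) || Nat.beq (i + 64) 290 || rs.any (covers (dec (i + 64))))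

theorem origin_mask {M : ℕ} (h : onlyOrigin M = true) :
    ∀ i, 64 ≤ i → M.testBit i = true → dec i = 0 := by
  intro i h64 hi
  obtain ⟨j, rfl⟩ := Nat.exists_eq_add_of_le h64
  have hj : (Nat.shiftRight M 64).testBit j = true := by
    show (M >>> 64).testBit j = true
    rw [Nat.testBit_shiftRight]
    exact hi
  rw [onlyOrigin, Bool.or_eq_true] at h
  rcases h with h | h <;> rw [Nat.eq_of_beq_eq_true h] at hj
  · simp at hj
  · rw [testBit_bit1] at hj
    subst hj
    decide

theorem winIn_reply {s a b : Bool} {k : ℕ} {p : Cell}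
    (h : WinIn k {0} {(syE s a b).symm p}) : WinIn k ({0} : Finset Cell) {p} := by
  have h' := winIn_sy s a b h
  rw [Finset.image_singleton, Finset.image_singleton] at h'
  have e0 : sy s a b 0 = 0 := by cases s <;> simp [sy, Prod.mk_eq_zero]
  have e1 : sy s a b ((syE s a b).symm p) = p := (syE s a b).apply_symm_apply p
  rwa [e0, e1] at h'

theorem winIn_of_roots {first : ℕ × ℕ} {rs : List Root}
    (hgood : AllGood (first :: rs.map Prod.snd)) (hc : topCheck first rs = true) :
    ∃ k, ∀ p : Cell, p ≠ 0 → WinIn k {0} {p} := by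
  obtain ⟨k, hk⟩ := exists_bound _ hgood
  simp only [topCheck, Bool.and_eq_true] at hc
  obtain ⟨⟨⟨h1, h2⟩, h3⟩, h4⟩ := hc
  have hlt : first.2 < 2 ^ 480 := Nat.le_of_ble_eq_true h3
  refine ⟨k, fun p hp0 => ?_⟩
  have base : ∀ (st : ℕ × ℕ), st ∈ first :: rs.map Prod.snd →
      onlyOrigin st.1 = true → ∀ q : Cell, q ≠ 0 →
      (∀ j, 64 ≤ j → st.2.testBit j = true → dec j ≠ q) → WinIn k {0} {q} := by
    intro st hst hM q hq hfree
    refine hk st hst _ _ (fun i h64 hi => ?_) (fun i h64 hi => ?_) ?_
    · simp [origin_mask hM i h64 hi]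
    · simpa using hfree i h64 hi
    · simpa using hq.symm
  by_cases hfirst : ∀ j, 64 ≤ j → first.2.testBit j = true → dec j ≠ p
  · exact base first List.mem_cons_self h1 p hp0 hfirst
  · push Not at hfirst
    obtain ⟨i, h64, hi, hip⟩ := hfirst
    have hi480 : i < 480 := by
      by_contra hc
      have : first.2.testBit i = false :=
        Nat.testBit_lt_two_pow (hlt.trans_le (Nat.pow_le_pow_right (by norm_num) (by omega)))
      rw [this] at hi
      exact Bool.noConfusion hi
    have hcov := List.all_eq_true.1 h4 (i - 64) (List.mem_range.2 (by omega))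
    rw [Nat.sub_add_cancel h64] at hcov
    have h290 : Nat.beq i 290 = false := by
      cases hb : Nat.beq i 290
      · rfl
      · exfalso
        rw [Nat.eq_of_beq_eq_true hb] at hip
        exact hp0 (hip.symm.trans (by decide))
    simp only [hi, h290, Bool.not_true, Bool.false_or] at hcov
    obtain ⟨⟨⟨s, a, b⟩, st⟩, hr, hcr⟩ := List.any_eq_true.1 hcov
    rw [hip] at hcr
    apply winIn_reply (s := s) (a := a) (b := b)
    have hmem : st ∈ first :: rs.map Prod.snd :=
      List.mem_cons_of_mem _ (List.mem_map.2 ⟨_, hr, rfl⟩)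
    have hM : onlyOrigin st.1 = true := List.all_eq_true.1 h2 ((s, a, b), st) hr
    refine base st hmem hM ((syE s a b).symm p) ?_ (freeAt_spec hcr)
    intro e
    have e1 := congrArg (syE s a b) e
    rw [Equiv.apply_symm_apply] at e1
    apply hp0
    rw [e1]
    show sy s a b 0 = 0
    cases s <;> simp [sy, Prod.mk_eq_zero]

theorem makerWins_of_roots {first : ℕ × ℕ} {rs : List Root}
    (hgood : AllGood (first :: rs.map Prod.snd)) (hc : topCheck first rs = true) :
    MakerWins := by
  obtain ⟨k, hk⟩ := winIn_of_roots hgood hc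
  exact makerWins_of_winIn 0 k hk

end Vale.Agent.P062
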